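import Vale.Agent.P299.H792.Harnack

/-!
# P299, package D2-LIM: the positive solution of maximal logarithmic gradient
-/

open scoped Manifold ContDiff ComplexOrder Topology
open Vale.Agent.P272.K Vale.Agent.P299.H760 Filter Metric Set

set_option maxSynthPendingDepth 3

noncomputable section

namespace Vale.Agent.P299.H792

variable {n : ℕ} {M Γ : Type} [TopologicalSpace M] [Group Γ] (P : PS n M Γ)

/-! ## The solutions `w k` -/

/-- uniqueness of bounded solutions -/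
lemma unique (hW : WMPStatement) {l : ℝ} (hl : 0 < l) {w v f : M → ℝ} (hw : P.Sm w) (hv : P.Sm v)
    (hwb : ∃ W, ∀ m, |w m| ≤ W) (hvb : ∃ W, ∀ m, |v m| ≤ W) (hws : P.IsSol l w f)
    (hvs : P.IsSol l v f) (m : M) : w m = v m := by
  have key : ∀ w v : M → ℝ, P.Sm w → P.Sm v → (∃ W, ∀ m, |w m| ≤ W) → (∃ W, ∀ m, |v m| ≤ W) →
      P.IsSol l w f → P.IsSol l v f → v m ≤ w m := by
    intro w v hw hv hwb hvb hws hvs
    obtain ⟨W, hW1⟩ := hwb
    obtain ⟨V, hV1⟩ := hvb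
    have h := hW n M Γ P l hl (fun m => w m - v m) (Sm.sub P hw hv)
      ⟨W + V, fun m => (abs_sub _ _).trans (add_le_add (hW1 m) (hV1 m))⟩ ?_ m
    · linarith
    · intro i γ z hz
      have h1 : P.loc i γ (fun m => w m - v m) = fun z => P.loc i γ w z - P.loc i γ v z := rfl
      have h2 := hws i γ z hz
      have h3 := hvs i γ z hz
      rw [h1, Lo_eq, Lop_sub (hw i γ z hz) (hv i γ z hz), ← Lo_eq, ← Lo_eq]
      linarith
  exact le_antisymm (key v w hv hw hvb hwb hvs hws) (key w v hw hv hwb hvb hws hvs)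

/-- the strong maximum principle on `M` -/
lemma pos_of [ConnectedSpace M] (hS : SMPStatement) {l : ℝ} {w f : M → ℝ} (hw : P.Sm w)
    (hws : P.IsSol l w f) (hf : ∀ m, 0 ≤ f m) (hfp : ∃ m, 0 < f m) (hw0 : ∀ m, 0 ≤ w m) (m : M) :
    0 < w m := by
  by_contra hm
  have hm0 : w m = 0 := le_antisymm (not_lt.1 hm) (hw0 m)
  have hop : IsOpen {p | w p = 0} := by
    rw [isOpen_iff_mem_nhds]
    intro p hp
    obtain ⟨i, γ, h1, -, h3, h4⟩ := exists_patch P p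
    have h5 := hS (Cm n) (cf P i) _ (ellOn P i) (fun _ => 0) continuousOn_const l (P.loc i γ w)
      (fun z hz => contDiffAt_two (hw i γ z hz)) (fun z hz => hw0 _) ?_ _ h3
      (by rw [loc_eq, h4]; exact hp)
    · exact near_of_chart P h1 (p := fun p => w p = 0) h5
    · intro z hz
      have h6 := hws i γ z hz
      have h7 : 0 ≤ P.loc i γ f z := hf _
      rw [← Lo_eq]
      simp only [zero_apply, add_zero]
      linarith
  have hcl : IsClosed {p | w p = 0} := isClosed_eq (Sm.continuous P hw) continuous_const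
  have hu : {p | w p = 0} = univ := IsClopen.eq_univ ⟨hcl, hop⟩ ⟨m, hm0⟩
  obtain ⟨q, hq⟩ := hfp
  obtain ⟨i, γ, h1, -, h3, h4⟩ := exists_patch P q
  have h5 : P.loc i γ w = fun _ => 0 := by
    funext z
    have : pt P i γ z ∈ {p | w p = 0} := hu ▸ mem_univ _
    exact this
  have h6 := hws i γ _ h3
  rw [h5, Lo_eq, Lop_zero, loc_eq, h4] at h6
  simp only [mul_zero, sub_zero] at h6
  exact absurd h6 hq.ne

/-! ## The logarithmic gradient -/

lemma Q_cmul (i : Fin P.N) (γ : Γ) (G : M → ℝ) {c : ℝ} (hc : c ≠ 0) (z : Cm n) :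
    P.Q i γ (fun m => c * G m) z = P.Q i γ G z := by
  unfold PS.Q
  rw [loc_cmul, fderiv_cmul]
  have h1 : ((c • fderiv ℝ (P.loc i γ G)) z).smulRight ((c • fderiv ℝ (P.loc i γ G)) z) =
      (c ^ 2) • (fderiv ℝ (P.loc i γ G) z).smulRight (fderiv ℝ (P.loc i γ G) z) := by
    ext a b
    simp only [Pi.smul_apply, ContinuousLinearMap.smulRight_apply, smul_apply, smul_eq_mul]
    ring
  rw [h1, map_smul, smul_eq_mul, mul_pow, mul_div_mul_left _ _ (pow_ne_zero 2 hc)]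

/-- translation by `γ` -/
lemma loc_translate (i : Fin P.N) (γ δ : Γ) (G : M → ℝ) :
    P.loc i δ (fun m => G (P.ac γ⁻¹ m)) = P.loc i (δ * γ) G := by
  funext z
  show G (P.ac γ⁻¹ (P.ac δ⁻¹ _)) = G (P.ac (δ * γ)⁻¹ _)
  rw [← P.ac_mul, mul_inv_rev]

/-- the logarithmic gradient is bounded on the patches -/
lemma Q_bdd (hLog : LogStatement) {l : ℝ} (hl : 0 < l) {G : M → ℝ} (hG : P.Sm G)
    (hp : ∀ m, 0 < G m) (hs : SolOn P l univ G) :
    ∃ B : ℝ, ∀ i γ, ∀ z ∈ ball (P.c i) (P.r i), P.Q i γ G z ≤ B := by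
  have key : ∀ i, ∃ B : ℝ, ∀ γ, ∀ z ∈ ball (P.c i) (P.r i), P.Q i γ G z ≤ B := by
    intro i
    have hr := P.r_pos i
    obtain ⟨C, hC, hCw⟩ := hLog (Cm n) (cf P i) _ (ellOn P i) l hl (P.c i) (4 * P.r i)
      (by linarith) (P.ball_sub i)
    have hcont : ContinuousOn (fun z => ‖cf P i z‖) (closedBall (P.c i) (P.r i)) := fun z hz =>
      (((ellOn P i).smooth z (closedBall_target P i hz)).continuousAt.norm).continuousWithinAt
    obtain ⟨K, hK⟩ := (isCompact_closedBall (P.c i) (P.r i)).bddAbove_image hcont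
    refine ⟨K * C ^ 2, fun γ z hz => ?_⟩
    have hsub : ball (P.c i) (4 * P.r i) ⊆ (P.e i).target := fun y hy =>
      P.ball_sub i (ball_subset_closedBall hy)
    have h1 := hCw (P.loc i γ G) (fun y hy => hG i γ y (hsub hy)) (fun y hy => hp _)
      (fun y hy => hs i γ y (hsub hy) (mem_univ _)) z (by
        rw [mem_ball] at *; linarith)
    have h0 : 0 < P.loc i γ G z := hp _
    have h2 : ‖cf P i z‖ ≤ K := hK ⟨z, ball_subset_closedBall hz, rfl⟩
    have h3 : ‖(fderiv ℝ (P.loc i γ G) z).smulRight (fderiv ℝ (P.loc i γ G) z)‖ ≤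
        (C * P.loc i γ G z) ^ 2 := by
      rw [ContinuousLinearMap.norm_smulRight_apply, ← sq]
      exact pow_le_pow_left₀ (norm_nonneg _) h1 2
    unfold PS.Q
    rw [div_le_iff₀ (by positivity)]
    calc opG (P.g i z) ((fderiv ℝ (P.loc i γ G) z).smulRight (fderiv ℝ (P.loc i γ G) z))
        ≤ ‖cf P i z ((fderiv ℝ (P.loc i γ G) z).smulRight (fderiv ℝ (P.loc i γ G) z))‖ :=
          le_abs_self _
      _ ≤ ‖cf P i z‖ * ‖(fderiv ℝ (P.loc i γ G) z).smulRight (fderiv ℝ (P.loc i γ G) z)‖ :=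
          ContinuousLinearMap.le_opNorm _ _
      _ ≤ K * (C * P.loc i γ G z) ^ 2 :=
          mul_le_mul h2 h3 (norm_nonneg _) ((norm_nonneg _).trans h2)
      _ = K * C ^ 2 * P.loc i γ G z ^ 2 := by ring
  choose B hB using key
  obtain ⟨B', hB'⟩ := Finite.bddAbove_range B
  exact ⟨B', fun i γ z hz => (hB i γ z hz).trans (hB' ⟨i, rfl⟩)⟩

/-- continuity of `(a, ξ, v) ↦ a (ξ ⊗ ξ) / v²` -/
lemma tendsto_quot {E : Type} [NormedAddCommGroup E] [NormedSpace ℝ E] {ι : Type} {F : Filter ι}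
    {a : ι → B2 E →L[ℝ] ℝ} {a₀ : B2 E →L[ℝ] ℝ} {ξ : ι → E →L[ℝ] ℝ} {ξ₀ : E →L[ℝ] ℝ} {v : ι → ℝ}
    {v₀ : ℝ} (ha : Tendsto a F (𝓝 a₀)) (hξ : Tendsto ξ F (𝓝 ξ₀)) (hv : Tendsto v F (𝓝 v₀))
    (h0 : v₀ ≠ 0) :
    Tendsto (fun j => a j ((ξ j).smulRight (ξ j)) / v j ^ 2) F
      (𝓝 (a₀ (ξ₀.smulRight ξ₀) / v₀ ^ 2)) := by
  have h4 : Continuous fun ξ : E →L[ℝ] ℝ => ξ.smulRight ξ := by
    have h5 : Continuous fun ξ : E →L[ℝ] ℝ =>
        ContinuousLinearMap.smulRightL ℝ E (E →L[ℝ] ℝ) ξ ξ :=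
      (ContinuousLinearMap.continuous _).clm_apply continuous_id
    exact h5
  have h3 : Tendsto (fun j => (ξ j).smulRight (ξ j)) F (𝓝 (ξ₀.smulRight ξ₀)) :=
    (h4.tendsto _).comp hξ
  have h7 : Continuous fun p : (B2 E →L[ℝ] ℝ) × B2 E => p.1 p.2 :=
    continuous_fst.clm_apply continuous_snd
  have h6 : Tendsto (fun j => a j ((ξ j).smulRight (ξ j))) F (𝓝 (a₀ (ξ₀.smulRight ξ₀))) :=
    (h7.tendsto (a₀, ξ₀.smulRight ξ₀)).comp (ha.prodMk_nhds h3)
  exact h6.div (hv.pow 2) (pow_ne_zero 2 h0)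

/-- `Q` passes to the limit, along converging points. -/
lemma tendsto_Q {ι : Type} {𝒰 : Ultrafilter ι} {u : ι → M → ℝ} {G : M → ℝ} {i : Fin P.N} {γ : Γ}
    {z : Cm n} (hz : z ∈ (P.e i).target) (hG : 0 < P.loc i γ G z) {zs : ι → Cm n}
    (hzs : Tendsto zs 𝒰 (𝓝 z)) (h0 : Tendsto (fun j => P.loc i γ (u j) (zs j)) 𝒰
      (𝓝 (P.loc i γ G z)))
    (h1 : Tendsto (fun j => fderiv ℝ (P.loc i γ (u j)) (zs j)) 𝒰
      (𝓝 (fderiv ℝ (P.loc i γ G) z))) :
    Tendsto (fun j => P.Q i γ (u j) (zs j)) 𝒰 (𝓝 (P.Q i γ G z)) :=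
  tendsto_quot (((ellOn P i).smooth z hz).continuousAt.tendsto.comp hzs) h1 h0 hG.ne'

/-- **LIM**: the positive solution of maximal logarithmic gradient. -/
theorem lim (hInt : InteriorStatement) (hLog : LogStatement) (hSMP : SMPStatement)
    (hUl : UltraStatement) (hSol : SolverStatement) (hW : WMPStatement) (hI : InvStatement) :
    LimStatement := by
  intro n M Γ _ _ _ P R hRΓ hRT f hf1 hf2 hf3 hf4 hf5 hf6
  obtain ⟨l, hl1, hl⟩ := hSol n M Γ P
  have hl0 : 0 < l := by linarith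
  obtain ⟨o⟩ : Nonempty M := inferInstance
  -- the solutions `w k`
  have hw : ∀ k, ∃ w : M → ℝ, P.Sm w ∧ (∃ W, ∀ m, |w m| ≤ W) ∧ P.IsSol l w (f k) := by
    intro k
    obtain ⟨A, B, hAB⟩ := hf2 k
    exact hl l le_rfl (f k) A B (hf1 k) hAB
  choose w hw1 hw2 hw3 using hw
  have hw4 : ∀ k m, 0 ≤ w k m := by
    intro k
    refine hW n M Γ P l hl0 (w k) (hw1 k) (hw2 k) fun i γ z hz => ?_
    rw [hw3 k i γ z hz]
    exact hf3 k _
  have hw5 : ∀ k m, 0 < w k m := fun k =>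
    pos_of P hSMP (hw1 k) (hw3 k) (hf3 k) (hf4 k) (hw4 k)
  have hw6 : ∀ k m m', R m m' → w k m = w k m' := by
    intro k m m' hR
    obtain ⟨T, hT, hTm, hTR⟩ := hRT m m' hR
    obtain ⟨h1, h2⟩ := hI n M Γ P T hT (w k) (hw1 k)
    have h3 := h2 l (f k) (hw3 k)
    have h4 : (fun m => f k (T m)) = f k := by
      funext p
      exact (hf5 k p (T p) (hTR p)).symm
    rw [h4] at h3
    obtain ⟨W, hWb⟩ := hw2 k
    have h5 := unique P hW hl0 (hw1 k) h1 ⟨W, hWb⟩ ⟨W, fun m => hWb (T m)⟩ (hw3 k) h3 m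
    rw [h5, hTm]
  -- the first limit
  have hF : Fam P l o (hyperfilter ℕ) (fun k m => (w k o)⁻¹ * w k m) := by
    refine ⟨fun k => Sm.cmul P (hw1 k) _, fun k m => mul_pos (inv_pos.2 (hw5 k o)) (hw5 k m), ?_,
      fun k => inv_mul_cancel₀ (hw5 k o).ne'⟩
    intro m
    obtain ⟨U, hU, hk⟩ := hf6 m
    refine ⟨U, hU, ?_⟩
    have hk' : ∀ᶠ k in (hyperfilter ℕ : Filter ℕ), ∀ m' ∈ U, f k m' = 0 :=
      hk.filter_mono Nat.hyperfilter_le_atTop
    filter_upwards [hk'] with k hk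
    refine SolOn.cmul P ?_ _
    intro i γ z hz hU
    have h1 := hw3 k i γ z hz
    rw [loc_eq P i γ (f k), hk _ hU] at h1
    linarith
  obtain ⟨G, hG1, hG2, hG3, hG4, -⟩ := hF.limit hInt hLog hUl hl0
  have hG5 : ∀ m m', R m m' → G m = G m' := by
    intro m m' hR
    refine tendsto_nhds_unique (hG4 m) ((hG4 m').congr fun k => ?_)
    rw [hw6 k m m' hR]
  rw [← solOn_univ_iff] at hG3
  -- the supremum of `Q`
  obtain ⟨B, hB⟩ := Q_bdd P hLog hl0 hG2 hG1 hG3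
  set T : Set ℝ := {q | ∃ i γ, ∃ z ∈ ball (P.c i) (P.r i), P.Q i γ G z = q} with hT
  have hTb : BddAbove T := ⟨B, by rintro q ⟨i, γ, z, hz, rfl⟩; exact hB i γ z hz⟩
  have hTn : T.Nonempty := by
    obtain ⟨i, γ, -, h2, -, -⟩ := exists_patch P o
    exact ⟨_, i, γ, _, h2, rfl⟩
  set S : ℝ := sSup T with hS
  have hle : ∀ i γ, ∀ z ∈ ball (P.c i) (P.r i), P.Q i γ G z ≤ S := fun i γ z hz =>
    le_csSup hTb ⟨i, γ, z, hz, rfl⟩
  have hseq : ∀ j : ℕ, ∃ i γ, ∃ z ∈ ball (P.c i) (P.r i), S - 1 / ((j : ℝ) + 1) < P.Q i γ G z := by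
    intro j
    have h1 : S - 1 / ((j : ℝ) + 1) < sSup T := by
      have : (0 : ℝ) < 1 / ((j : ℝ) + 1) := by positivity
      linarith
    obtain ⟨q, ⟨i, γ, z, hz, rfl⟩, hq⟩ := exists_lt_of_lt_csSup hTn h1
    exact ⟨i, γ, z, hz, hq⟩
  choose ij γj zj hzj hQj using hseq
  -- the translated solutions
  set u : ℕ → M → ℝ := fun j m => (G (P.ac (γj j)⁻¹ o))⁻¹ * G (P.ac (γj j)⁻¹ m) with hu
  have hloc : ∀ j i δ, P.loc i δ (fun m => G (P.ac (γj j)⁻¹ m)) = P.loc i (δ * γj j) G :=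
    fun j i δ => loc_translate P i (γj j) δ G
  have hsm : ∀ j, P.Sm fun m => G (P.ac (γj j)⁻¹ m) := by
    intro j i δ z hz
    rw [hloc]
    exact hG2 i _ z hz
  have hF2 : Fam P l o (hyperfilter ℕ) u := by
    refine ⟨fun j => Sm.cmul P (hsm j) _, fun j m => mul_pos (inv_pos.2 (hG1 _)) (hG1 _), ?_,
      fun j => inv_mul_cancel₀ (hG1 _).ne'⟩
    intro m
    refine ⟨univ, univ_mem, Eventually.of_forall fun j => SolOn.cmul P ?_ _⟩
    intro i δ z hz _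
    rw [hloc]
    exact hG3 i _ z hz (mem_univ _)
  have hQu : ∀ j i δ z, P.Q i δ (u j) z = P.Q i (δ * γj j) G z := by
    intro j i δ z
    rw [hu]
    rw [Q_cmul P i δ (fun m => G (P.ac (γj j)⁻¹ m)) (inv_ne_zero (hG1 _).ne')]
    unfold PS.Q
    rw [hloc]
  obtain ⟨H, hH1, hH2, hH3, hH4, hH5⟩ := hF2.limit hInt hLog hUl hl0
  -- the limit of the indices and of the points
  obtain ⟨i₀, hi₀⟩ := Ultrafilter.eq_pure_of_finite ((hyperfilter ℕ).map ij)
  have hi : ∀ᶠ j in (hyperfilter ℕ : Filter ℕ), ij j = i₀ := by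
    have h1 : ({i₀} : Set (Fin P.N)) ∈ (hyperfilter ℕ).map ij := by
      rw [hi₀]; exact Ultrafilter.mem_pure.2 rfl
    exact h1
  have hz1 : closedBall (P.c i₀) (P.r i₀) ∈ (hyperfilter ℕ).map zj := by
    have : ∀ᶠ j in (hyperfilter ℕ : Filter ℕ), zj j ∈ closedBall (P.c i₀) (P.r i₀) := by
      filter_upwards [hi] with j hj
      have := hzj j
      rw [hj] at this
      exact ball_subset_closedBall this
    exact this
  obtain ⟨z₀, hz₀, hzt⟩ := (isCompact_closedBall (P.c i₀) (P.r i₀)).ultrafilter_le_nhds' _ hz1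
  have hzt' : Tendsto zj (hyperfilter ℕ) (𝓝 z₀) := hzt
  have hSlim : Tendsto (fun j : ℕ => S - 1 / ((j : ℝ) + 1)) (hyperfilter ℕ) (𝓝 S) := by
    have h1 : Tendsto (fun j : ℕ => 1 / ((j : ℝ) + 1)) atTop (𝓝 0) :=
      tendsto_one_div_add_atTop_nhds_zero_nat
    have h2 := (h1.const_sub S).mono_left Nat.hyperfilter_le_atTop
    simpa using h2
  refine ⟨l, hl0, H, hH2, hH1, hH3, ?_, S, ?_, i₀, 1, z₀, hz₀, ?_⟩
  · intro m m' hR
    refine tendsto_nhds_unique (hH4 m) ((hH4 m').congr fun k => ?_)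
    simp only [hu]
    rw [hG5 _ _ (hRΓ (γj k)⁻¹ m m' hR)]
  · intro i δ z hz
    have hzt : z ∈ (P.e i).target := ball_target P i hz
    obtain ⟨h1, h2⟩ := hH5 i δ z hzt (fun _ => z) tendsto_const_nhds
    have h3 := tendsto_Q P hzt (hH1 _) tendsto_const_nhds h1 h2
    refine le_of_tendsto h3 (Eventually.of_forall fun j => ?_)
    rw [hQu]
    exact hle i _ z hz
  · have hzt : z₀ ∈ (P.e i₀).target := closedBall_target P i₀ hz₀
    obtain ⟨h1, h2⟩ := hH5 i₀ 1 z₀ hzt zj hzt'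
    have h3 := tendsto_Q P hzt (hH1 _) hzt' h1 h2
    refine tendsto_nhds_unique h3 ?_
    refine tendsto_of_tendsto_of_tendsto_of_le_of_le' hSlim tendsto_const_nhds ?_ ?_
    · filter_upwards [hi] with j hj
      rw [hQu, one_mul, ← hj]
      exact (hQj j).le
    · filter_upwards [hi] with j hj
      rw [hQu, one_mul, ← hj]
      exact hle _ _ _ (hzj j)

end Vale.Agent.P299.H792
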