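import Vale.Agent.P299.H760.Iface
import Vale.Agent.P272.K.N.Det

/-!
# P299, package D2-LIM: basic facts on patch systems
-/

open scoped Manifold ContDiff ComplexOrder Topology
open Vale.Agent.P272.K Vale.Agent.P299.H760 Filter Metric Set

set_option maxSynthPendingDepth 3

noncomputable section

namespace Vale.Agent.P299.H792

/-! ## the operator -/

section op
variable {E : Type} [NormedAddCommGroup E] [NormedSpace ℝ E]

lemma contDiffAt_two {u : E → ℝ} {z : E} (hu : ContDiffAt ℝ ∞ u z) : ContDiffAt ℝ 2 u z :=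
  hu.of_le (WithTop.coe_le_coe.2 le_top)

lemma diff_near {u : E → ℝ} {z : E} (hu : ContDiffAt ℝ ∞ u z) :
    ∀ᶠ y in 𝓝 z, DifferentiableAt ℝ u y := by
  have h := (contDiffAt_two hu).eventually (by simp)
  exact h.mono fun y hy => hy.differentiableAt (by norm_num)

lemma diff_fderiv {u : E → ℝ} {z : E} (hu : ContDiffAt ℝ ∞ u z) :
    DifferentiableAt ℝ (fderiv ℝ u) z :=
  ((contDiffAt_two hu).fderiv_right (m := 1) (by norm_num)).differentiableAt (by norm_num)

lemma Lop_sub {a : E → B2 E →L[ℝ] ℝ} {u v : E → ℝ} {z : E} (hu : ContDiffAt ℝ ∞ u z)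
    (hv : ContDiffAt ℝ ∞ v z) : Lop a (fun y => u y - v y) z = Lop a u z - Lop a v z := by
  have h1 : fderiv ℝ (fun y => u y - v y) =ᶠ[𝓝 z] fun y => fderiv ℝ u y - fderiv ℝ v y := by
    filter_upwards [diff_near hu, diff_near hv] with y h1 h2 using fderiv_fun_sub h1 h2
  unfold Lop
  rw [h1.fderiv_eq, fderiv_fun_sub (diff_fderiv hu) (diff_fderiv hv), map_sub]

lemma fderiv_cmul (c : ℝ) (u : E → ℝ) : fderiv ℝ (fun y => c * u y) = c • fderiv ℝ u := by
  have h : (fun y => c * u y) = c • u := rfl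
  rw [h, fderiv_const_smul_field]

lemma Lop_cmul {a : E → B2 E →L[ℝ] ℝ} (c : ℝ) (u : E → ℝ) (z : E) :
    Lop a (fun y => c * u y) z = c * Lop a u z := by
  unfold Lop
  rw [fderiv_cmul, fderiv_const_smul_field, Pi.smul_apply, map_smul, smul_eq_mul]

lemma Lop_zero {a : E → B2 E →L[ℝ] ℝ} (z : E) : Lop a (fun _ => (0 : ℝ)) z = 0 := by
  have := Lop_cmul (a := a) 0 (fun _ => (0 : ℝ)) z
  simpa using this

lemma Lop_congr {a : E → B2 E →L[ℝ] ℝ} {u v : E → ℝ} {z : E} (h : u =ᶠ[𝓝 z] v) :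
    Lop a u z = Lop a v z := by
  unfold Lop
  rw [(h.fderiv).fderiv_eq]

end op

/-! ## ellipticity -/

section ell
variable {n : ℕ}

/-- real part of an entry of the Levi matrix -/
def cR (j k : Fin n) : B2 (Cm n) →L[ℝ] ℝ :=
  LinearMap.toContinuousLinearMap
    { toFun := fun B => (N.lev B j k).re
      map_add' := fun B C => by rw [N.lev_add]; simp
      map_smul' := fun c B => by rw [N.lev_smul]; simp }

/-- imaginary part of an entry of the Levi matrix -/
def cI (j k : Fin n) : B2 (Cm n) →L[ℝ] ℝ :=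
  LinearMap.toContinuousLinearMap
    { toFun := fun B => (N.lev B j k).im
      map_add' := fun B C => by rw [N.lev_add]; simp
      map_smul' := fun c B => by rw [N.lev_smul]; simp }

lemma opG_eq (G : Matrix (Fin n) (Fin n) ℂ) :
    opG G = ∑ j, ∑ k, ((G⁻¹ j k).re • cR k j - (G⁻¹ j k).im • cI k j) := by
  refine ContinuousLinearMap.ext fun B => ?_
  rw [opG_apply]
  simp only [Matrix.trace, Matrix.diag, Matrix.mul_apply, Complex.re_sum, sum_apply, sub_apply,
    smul_apply, smul_eq_mul, Complex.mul_re]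
  rfl

lemma contDiffAt_opG {g : Cm n → Matrix (Fin n) (Fin n) ℂ} {z : Cm n}
    (hg : ∀ i j, ContDiffAt ℝ ∞ (fun y => g y i j) z) (hp : (g z).PosDef) :
    ContDiffAt ℝ ∞ (fun y => opG (g y)) z := by
  have h1 : ∀ i j, ContDiffAt ℝ ∞ (fun y => (g y)⁻¹ i j) z :=
    fun i j => contDiffAt_inv hg hp.det_pos.ne' i j
  have h2 : (fun y => opG (g y)) = fun y =>
      ∑ j, ∑ k, (((g y)⁻¹ j k).re • cR k j - ((g y)⁻¹ j k).im • cI k j) := by
    funext y; exact opG_eq _
  rw [h2]
  refine ContDiffAt.sum fun j _ => ContDiffAt.sum fun k _ => ?_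
  exact ((Complex.reCLM.contDiff.contDiffAt.comp z (h1 j k)).smul contDiffAt_const).sub
    ((Complex.imCLM.contDiff.contDiffAt.comp z (h1 j k)).smul contDiffAt_const)

end ell

variable {n : ℕ} {M Γ : Type} [TopologicalSpace M] [Group Γ] (P : PS n M Γ)

/-- the coefficients of the Laplacian in the patch `i` -/
def cf (i : Fin P.N) (y : Cm n) : B2 (Cm n) →L[ℝ] ℝ := opG (P.g i y)

lemma ellOn (i : Fin P.N) : EllOn (cf P i) (P.e i).target where
  isOpen := (P.e i).open_target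
  smooth := fun z hz => contDiffAt_opG (P.g_smooth i z hz) (P.g_pos i z hz)
  pos := fun z hz _ hξ => N.trace_inv_lev_pos (P.g_pos i z hz) hξ

lemma Lo_eq (i : Fin P.N) (u : Cm n → ℝ) (z : Cm n) : P.Lo i u z = Lop (cf P i) u z := rfl

/-- the point of `M` with coordinate `z` in the patch `(i, γ)` -/
def pt (i : Fin P.N) (γ : Γ) (z : Cm n) : M := P.ac γ⁻¹ ((P.e i).symm z)

lemma loc_eq (i : Fin P.N) (γ : Γ) (f : M → ℝ) (z : Cm n) : P.loc i γ f z = f (pt P i γ z) := rfl

lemma ac_inv (γ : Γ) (m : M) : P.ac γ⁻¹ (P.ac γ m) = m := by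
  rw [← P.ac_mul, inv_mul_cancel, P.ac_one]

lemma ac_inv' (γ : Γ) (m : M) : P.ac γ (P.ac γ⁻¹ m) = m := by
  rw [← P.ac_mul, mul_inv_cancel, P.ac_one]

lemma pt_coord {i : Fin P.N} {γ : Γ} {m : M} (h : P.ac γ m ∈ (P.e i).source) :
    pt P i γ (P.e i (P.ac γ m)) = m := by
  unfold pt
  rw [(P.e i).left_inv h, ac_inv]

lemma continuousAt_pt {i : Fin P.N} (γ : Γ) {z : Cm n} (hz : z ∈ (P.e i).target) :
    ContinuousAt (pt P i γ) z :=
  ContinuousAt.comp (f := (P.e i).symm) (g := P.ac γ⁻¹) (P.ac γ⁻¹).continuous.continuousAt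
    ((P.e i).continuousAt_symm hz)

lemma continuousAt_coord {i : Fin P.N} {γ : Γ} {m : M} (h : P.ac γ m ∈ (P.e i).source) :
    ContinuousAt (fun m => P.e i (P.ac γ m)) m :=
  ContinuousAt.comp (f := P.ac γ) (g := P.e i) ((P.e i).continuousAt h)
    (P.ac γ).continuous.continuousAt

lemma source_near {i : Fin P.N} {γ : Γ} {m : M} (h : P.ac γ m ∈ (P.e i).source) :
    ∀ᶠ m' in 𝓝 m, P.ac γ m' ∈ (P.e i).source :=
  (P.ac γ).continuous.continuousAt.eventually ((P.e i).open_source.mem_nhds h)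

/-- a property which holds near `z` in the patch holds near the point -/
lemma near_of_chart {i : Fin P.N} {γ : Γ} {m : M} (h : P.ac γ m ∈ (P.e i).source)
    {p : M → Prop} (hp : ∀ᶠ z in 𝓝 (P.e i (P.ac γ m)), p (pt P i γ z)) : ∀ᶠ m' in 𝓝 m, p m' := by
  filter_upwards [(continuousAt_coord P h).eventually hp, source_near P h] with m' h1 h2
  rwa [pt_coord P h2] at h1

/-- every point is in a patch -/
lemma exists_patch (m : M) : ∃ i γ, P.ac γ m ∈ (P.e i).source ∧
    P.e i (P.ac γ m) ∈ ball (P.c i) (P.r i) ∧ P.e i (P.ac γ m) ∈ (P.e i).target ∧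
    pt P i γ (P.e i (P.ac γ m)) = m := by
  obtain ⟨i, γ, h1, h2⟩ := P.cover m
  exact ⟨i, γ, h1, h2, (P.e i).map_source h1, pt_coord P h1⟩

lemma ball_target (i : Fin P.N) : ball (P.c i) (P.r i) ⊆ (P.e i).target := fun z hz =>
  P.ball_sub i (by
    have := P.r_pos i
    rw [mem_closedBall]; rw [mem_ball] at hz; linarith)

lemma closedBall_target (i : Fin P.N) : closedBall (P.c i) (P.r i) ⊆ (P.e i).target := fun z hz =>
  P.ball_sub i (by
    have := P.r_pos i
    rw [mem_closedBall] at *; linarith)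

lemma Sm.continuous {f : M → ℝ} (hf : P.Sm f) : Continuous f := by
  rw [continuous_iff_continuousAt]
  intro m
  obtain ⟨i, γ, h1, -, h3, h4⟩ := exists_patch P m
  have h5 : ContinuousAt (fun m' => P.loc i γ f (P.e i (P.ac γ m'))) m :=
    ContinuousAt.comp (f := fun m' => P.e i (P.ac γ m')) (g := P.loc i γ f)
      (hf i γ _ h3).continuousAt (continuousAt_coord P h1)
  refine h5.congr ?_
  filter_upwards [source_near P h1] with m' h
  rw [loc_eq, pt_coord P h]

lemma Sm.sub {f g : M → ℝ} (hf : P.Sm f) (hg : P.Sm g) : P.Sm fun m => f m - g m :=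
  fun i γ z hz => (hf i γ z hz).sub (hg i γ z hz)

lemma Sm.cmul {f : M → ℝ} (hf : P.Sm f) (c : ℝ) : P.Sm fun m => c * f m :=
  fun i γ z hz => contDiffAt_const.mul (hf i γ z hz)

lemma loc_cmul (i : Fin P.N) (γ : Γ) (c : ℝ) (f : M → ℝ) :
    P.loc i γ (fun m => c * f m) = fun z => c * P.loc i γ f z := rfl

/-- `u` solves `Δu = l u` on `U` -/
def SolOn (l : ℝ) (U : Set M) (u : M → ℝ) : Prop :=
  ∀ i γ, ∀ z ∈ (P.e i).target, pt P i γ z ∈ U → P.Lo i (P.loc i γ u) z = l * P.loc i γ u z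

lemma SolOn.cmul {l : ℝ} {U : Set M} {u : M → ℝ} (h : SolOn P l U u) (c : ℝ) :
    SolOn P l U fun m => c * u m := by
  intro i γ z hz hU
  have := h i γ z hz hU
  rw [loc_cmul, Lo_eq, Lop_cmul, ← Lo_eq, this]
  ring

lemma solOn_univ_iff {l : ℝ} {u : M → ℝ} : SolOn P l univ u ↔ P.IsSol l u (fun _ => 0) := by
  constructor
  · intro h i γ z hz
    have := h i γ z hz (mem_univ _)
    have h0 : P.loc i γ (fun _ => (0 : ℝ)) z = 0 := rfl
    rw [h0, this]; ring
  · intro h i γ z hz _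
    have := h i γ z hz
    have h0 : P.loc i γ (fun _ => (0 : ℝ)) z = 0 := rfl
    rw [h0] at this
    linarith

end Vale.Agent.P299.H792
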