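import Vale.Agent.P299.H792.Basic
import Mathlib.Analysis.SpecialFunctions.Log.Deriv
import Mathlib.Order.Filter.Ultrafilter.Basic

/-!
# P299, package D2-LIM: Harnack inequality and ultralimits of positive solutions
-/

open scoped Manifold ContDiff ComplexOrder Topology
open Vale.Agent.P272.K Vale.Agent.P299.H760 Filter Metric Set

set_option maxSynthPendingDepth 3

noncomputable section

namespace Vale.Agent.P299.H792

variable {n : ℕ} {M Γ : Type} [TopologicalSpace M] [Group Γ] (P : PS n M Γ)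

/-- Harnack inequality in a ball. -/
lemma harnack_ball {E : Type} [NormedAddCommGroup E] [NormedSpace ℝ E] {x₀ : E} {R C : ℝ}
    (hR : 0 < R) (hC : 0 ≤ C) {w : E → ℝ} (hw : ∀ z ∈ ball x₀ R, ContDiffAt ℝ ∞ w z)
    (hp : ∀ z ∈ ball x₀ R, 0 < w z) (hb : ∀ z ∈ ball x₀ (R / 2), ‖fderiv ℝ w z‖ ≤ C * w z) :
    ∀ z ∈ ball x₀ (R / 2), ∀ z' ∈ ball x₀ (R / 2), w z ≤ Real.exp (C * R) * w z' := by
  intro z hz z' hz'
  have hsub : ball x₀ (R / 2) ⊆ ball x₀ R := ball_subset_ball (by linarith)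
  have hd : ∀ y ∈ ball x₀ (R / 2), DifferentiableAt ℝ w y := fun y hy =>
    (contDiffAt_two (hw y (hsub hy))).differentiableAt (by norm_num)
  have h1 : ∀ y ∈ ball x₀ (R / 2), DifferentiableAt ℝ (fun y => Real.log (w y)) y := fun y hy =>
    (hd y hy).log (hp y (hsub hy)).ne'
  have h2 : ∀ y ∈ ball x₀ (R / 2), ‖fderiv ℝ (fun y => Real.log (w y)) y‖ ≤ C := by
    intro y hy
    have hy0 := hp y (hsub hy)
    rw [fderiv.log (hd y hy) hy0.ne', norm_smul, Real.norm_eq_abs, abs_of_pos (inv_pos.2 hy0),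
      inv_mul_le_iff₀ hy0, mul_comm]
    exact hb y hy
  have h3 := (convex_ball x₀ (R / 2)).norm_image_sub_le_of_norm_fderiv_le h1 h2 hz' hz
  have h4 : ‖z - z'‖ ≤ R := by
    have ha : dist z z' ≤ dist z x₀ + dist z' x₀ := dist_triangle_right z z' x₀
    rw [← dist_eq_norm]
    rw [mem_ball] at hz hz'
    linarith
  have h5 : Real.log (w z) - Real.log (w z') ≤ C * R := by
    have := (le_abs_self _).trans (h3.trans (mul_le_mul_of_nonneg_left h4 hC))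
    simpa using this
  have hz0 := hp z (hsub hz)
  have hz0' := hp z' (hsub hz')
  have h6 : Real.log (w z) ≤ C * R + Real.log (w z') := by linarith
  calc w z = Real.exp (Real.log (w z)) := (Real.exp_log hz0).symm
    _ ≤ Real.exp (C * R + Real.log (w z')) := Real.exp_le_exp.2 h6
    _ = Real.exp (C * R) * w z' := by rw [Real.exp_add, Real.exp_log hz0']

/-- Harnack inequality near a point. -/
lemma harnack (hLog : LogStatement) {l : ℝ} (hl : 0 < l) (m : M) {U : Set M} (hU : U ∈ 𝓝 m) :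
    ∃ V ∈ 𝓝 m, ∃ C : ℝ, 0 < C ∧ ∀ u : M → ℝ, P.Sm u → (∀ p, 0 < u p) → SolOn P l U u →
      ∀ p ∈ V, ∀ q ∈ V, u p ≤ C * u q := by
  obtain ⟨i, γ, h1, -, h3, h4⟩ := exists_patch P m
  set z₀ := P.e i (P.ac γ m) with hz₀
  have hc : ContinuousAt (pt P i γ) z₀ := continuousAt_pt P γ h3
  have hn : (P.e i).target ∩ (pt P i γ) ⁻¹' U ∈ 𝓝 z₀ :=
    inter_mem ((P.e i).open_target.mem_nhds h3) (hc.preimage_mem_nhds (by rwa [h4]))
  obtain ⟨R, hR, hRs⟩ := nhds_basis_closedBall.mem_iff.1 hn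
  obtain ⟨C, hC, hCw⟩ := hLog (Cm n) (cf P i) _ (ellOn P i) l hl z₀ R hR
    (hRs.trans inter_subset_left)
  have hb : ball z₀ R ⊆ closedBall z₀ R := ball_subset_closedBall
  refine ⟨{p | P.ac γ p ∈ (P.e i).source ∧ P.e i (P.ac γ p) ∈ ball z₀ (R / 2)}, ?_,
    Real.exp (C * R), Real.exp_pos _, ?_⟩
  · exact (source_near P h1).and
      ((continuousAt_coord P h1).eventually (ball_mem_nhds _ (by linarith)))
  · intro u hu hup hs p hp q hq
    have key := harnack_ball hR hC (w := P.loc i γ u) (fun z hz => hu i γ z (hRs (hb hz)).1)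
      (fun z hz => hup _) (hCw (P.loc i γ u) (fun z hz => hu i γ z (hRs (hb hz)).1)
        (fun z hz => hup _) (fun z hz => hs i γ z (hRs (hb hz)).1 (hRs (hb hz)).2))
      _ hp.2 _ hq.2
    rwa [loc_eq, loc_eq, pt_coord P hp.1, pt_coord P hq.1] at key

/-- sequences of positive solutions normalised at `o` -/
structure Fam (l : ℝ) (o : M) {ι : Type} (𝒰 : Ultrafilter ι) (u : ι → M → ℝ) : Prop where
  sm : ∀ j, P.Sm (u j)
  pos : ∀ j m, 0 < u j m
  sol : ∀ m, ∃ U ∈ 𝓝 m, ∀ᶠ j in (𝒰 : Filter ι), SolOn P l U (u j)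
  norm : ∀ j, u j o = 1

variable {P}

/-- normalised positive solutions are bounded above and below at every point -/
lemma Fam.bdd [ConnectedSpace M] (hLog : LogStatement) {l : ℝ} (hl : 0 < l) {o : M} {ι : Type}
    {𝒰 : Ultrafilter ι} {u : ι → M → ℝ} (h : Fam P l o 𝒰 u) (m : M) :
    ∃ C : ℝ, 0 < C ∧ ∀ᶠ j in (𝒰 : Filter ι), u j m ≤ C ∧ 1 ≤ C * u j m := by
  set A : Set M := {m | ∃ C : ℝ, 0 < C ∧ ∀ᶠ j in (𝒰 : Filter ι), u j m ≤ C ∧ 1 ≤ C * u j m}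
    with hA
  have key : ∀ m : M, ∃ V ∈ 𝓝 m, ∀ p ∈ V, ∀ q ∈ V, p ∈ A → q ∈ A := by
    intro m
    obtain ⟨U, hU, hs⟩ := h.sol m
    obtain ⟨V, hV, C, hC, hCu⟩ := harnack P hLog hl m hU
    refine ⟨V, hV, ?_⟩
    rintro p hp q hq ⟨C', hC', hj⟩
    refine ⟨C * C', by positivity, ?_⟩
    filter_upwards [hs, hj] with j h1 h2
    have h3 := hCu (u j) (h.sm j) (h.pos j) h1 q hq p hp
    have h4 := hCu (u j) (h.sm j) (h.pos j) h1 p hp q hq
    constructor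
    · exact h3.trans (mul_le_mul_of_nonneg_left h2.1 hC.le)
    · calc 1 ≤ C' * u j p := h2.2
        _ ≤ C' * (C * u j q) := mul_le_mul_of_nonneg_left h4 hC'.le
        _ = C * C' * u j q := by ring
  have hop : IsOpen A := by
    rw [isOpen_iff_mem_nhds]
    intro p hp
    obtain ⟨V, hV, hk⟩ := key p
    exact mem_of_superset hV fun q hq => hk p (mem_of_mem_nhds hV) q hq hp
  have hcl : IsOpen Aᶜ := by
    rw [isOpen_iff_mem_nhds]
    intro p hp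
    obtain ⟨V, hV, hk⟩ := key p
    exact mem_of_superset hV fun q hq hqA => hp (hk q hq p (mem_of_mem_nhds hV) hqA)
  have hne : A.Nonempty := ⟨o, 1, one_pos, Eventually.of_forall fun j => by rw [h.norm j]; simp⟩
  have hu : A = univ := IsClopen.eq_univ ⟨isOpen_compl_iff.1 hcl, hop⟩ hne
  have : m ∈ A := hu ▸ mem_univ m
  exact this

/-- pointwise ultralimits -/
lemma Fam.exists_lim [ConnectedSpace M] (hLog : LogStatement) {l : ℝ} (hl : 0 < l) {o : M}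
    {ι : Type} {𝒰 : Ultrafilter ι} {u : ι → M → ℝ} (h : Fam P l o 𝒰 u) :
    ∃ G : M → ℝ, (∀ m, 0 < G m) ∧ ∀ m, Tendsto (fun j => u j m) 𝒰 (𝓝 (G m)) := by
  have key : ∀ m, ∃ x : ℝ, 0 < x ∧ Tendsto (fun j => u j m) 𝒰 (𝓝 x) := by
    intro m
    obtain ⟨C, hC, hj⟩ := h.bdd hLog hl m
    have hmem : Icc (1 / C) C ∈ 𝒰.map (fun j => u j m) := by
      refine (hj.mono fun j hj => ⟨?_, hj.1⟩ : ∀ᶠ j in (𝒰 : Filter ι), u j m ∈ Icc (1 / C) C)
      rw [div_le_iff₀ hC, mul_comm]; exact hj.2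
    obtain ⟨x, hx, hxt⟩ := isCompact_Icc.ultrafilter_le_nhds' _ hmem
    exact ⟨x, lt_of_lt_of_le (by positivity) hx.1, hxt⟩
  choose G hG hG' using key
  exact ⟨G, hG, hG'⟩

/-- functions with bounded derivative converge along converging points -/
lemma tendsto_moving {E F : Type} [NormedAddCommGroup E] [NormedSpace ℝ E] [NormedAddCommGroup F]
    [NormedSpace ℝ F] {ι : Type} {𝒰 : Ultrafilter ι} {g : ι → E → F} {z₀ : E} {y : F} {ρ C : ℝ}
    (hρ : 0 < ρ) (hd : ∀ᶠ j in (𝒰 : Filter ι), ∀ z ∈ ball z₀ ρ, DifferentiableAt ℝ (g j) z ∧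
      ‖fderiv ℝ (g j) z‖ ≤ C) (hy : Tendsto (fun j => g j z₀) 𝒰 (𝓝 y)) {zs : ι → E}
    (hz : Tendsto zs 𝒰 (𝓝 z₀)) : Tendsto (fun j => g j (zs j)) 𝒰 (𝓝 y) := by
  have h1 : Tendsto (fun j => g j (zs j) - g j z₀) 𝒰 (𝓝 0) := by
    refine squeeze_zero_norm' (a := fun j => C * ‖zs j - z₀‖) ?_ ?_
    · filter_upwards [hd, hz.eventually (ball_mem_nhds z₀ hρ)] with j hj hj2
      exact (convex_ball z₀ ρ).norm_image_sub_le_of_norm_fderiv_le (fun x hx => (hj x hx).1)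
        (fun x hx => (hj x hx).2) (mem_ball_self hρ) hj2
    · have h2 : Tendsto (fun j => zs j - z₀) 𝒰 (𝓝 0) := by
        simpa using hz.sub_const z₀
      simpa using h2.norm.const_mul C
  simpa using h1.add hy

/-- **The limit lemma.** -/
lemma Fam.limit [ConnectedSpace M] (hInt : InteriorStatement) (hLog : LogStatement)
    (hUl : UltraStatement) {l : ℝ} (hl : 0 < l) {o : M}
    {ι : Type} {𝒰 : Ultrafilter ι} {u : ι → M → ℝ} (h : Fam P l o 𝒰 u) :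
    ∃ G : M → ℝ, (∀ m, 0 < G m) ∧ P.Sm G ∧ P.IsSol l G (fun _ => 0) ∧
      (∀ m, Tendsto (fun j => u j m) 𝒰 (𝓝 (G m))) ∧
      ∀ i γ, ∀ z ∈ (P.e i).target, ∀ zs : ι → Cm n, Tendsto zs 𝒰 (𝓝 z) →
        Tendsto (fun j => P.loc i γ (u j) (zs j)) 𝒰 (𝓝 (P.loc i γ G z)) ∧
        Tendsto (fun j => fderiv ℝ (P.loc i γ (u j)) (zs j)) 𝒰 (𝓝 (fderiv ℝ (P.loc i γ G) z)) := by
  obtain ⟨G, hG, hGt⟩ := h.exists_lim hLog hl
  have key : ∀ i γ, ∀ z ∈ (P.e i).target, ∀ k : ℕ, ∃ ρ : ℝ, 0 < ρ ∧ ∃ C : ℝ,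
      ∀ᶠ j in (𝒰 : Filter ι), ∀ y ∈ ball z ρ, ContDiffAt ℝ ∞ (P.loc i γ (u j)) y ∧
        P.Lo i (P.loc i γ (u j)) y = l * P.loc i γ (u j) y ∧
        ∀ k' ≤ k, ‖iteratedFDeriv ℝ k' (P.loc i γ (u j)) y‖ ≤ C := by
    intro i γ z hz k
    obtain ⟨U, hU, hs⟩ := h.sol (pt P i γ z)
    obtain ⟨V, hV, C, hC, hCu⟩ := harnack P hLog hl (pt P i γ z) hU
    have hc : ContinuousAt (pt P i γ) z := continuousAt_pt P γ hz
    have hn : (P.e i).target ∩ (pt P i γ) ⁻¹' (U ∩ V) ∈ 𝓝 z :=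
      inter_mem ((P.e i).open_target.mem_nhds hz) (hc.preimage_mem_nhds (inter_mem hU hV))
    obtain ⟨R, hR, hRs⟩ := nhds_basis_closedBall.mem_iff.1 hn
    have hb : ball z R ⊆ closedBall z R := ball_subset_closedBall
    obtain ⟨ρ, hρ, hρR, C', hC', hI⟩ := hInt (Cm n) (cf P i) _ (ellOn P i) l z R hR
      (hRs.trans inter_subset_left) k
    refine ⟨ρ, hρ, C' * (C * (G (pt P i γ z) + 1)), ?_⟩
    have h1 : ∀ᶠ j in (𝒰 : Filter ι), u j (pt P i γ z) ≤ G (pt P i γ z) + 1 :=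
      (hGt _).eventually (eventually_le_nhds (by linarith))
    filter_upwards [hs, h1] with j h2 h3 y hy
    have hyR : y ∈ ball z R := ball_subset_ball hρR hy
    refine ⟨h.sm j i γ y (hRs (hb hyR)).1, h2 i γ y (hRs (hb hyR)).1 (hRs (hb hyR)).2.1, ?_⟩
    intro k' hk'
    refine hI (P.loc i γ (u j)) (C * (G (pt P i γ z) + 1))
      (fun y hy => h.sm j i γ y (hRs (hb hy)).1)
      (fun y hy => h2 i γ y (hRs (hb hy)).1 (hRs (hb hy)).2.1) ?_ k' hk' y hy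
    intro y hy
    rw [loc_eq, abs_of_pos (h.pos j _)]
    refine (hCu (u j) (h.sm j) (h.pos j) h2 _ (hRs (hb hy)).2.2 _ (mem_of_mem_nhds hV)).trans ?_
    exact mul_le_mul_of_nonneg_left h3 hC.le
  have hloc : ∀ i γ z, Tendsto (fun j => P.loc i γ (u j) z) 𝒰 (𝓝 (P.loc i γ G z)) :=
    fun i γ z => hGt _
  have hult : ∀ i γ, ∀ z ∈ (P.e i).target, ContDiffAt ℝ ∞ (P.loc i γ G) z ∧
      Tendsto (fun j => fderiv ℝ (P.loc i γ (u j)) z) 𝒰 (𝓝 (fderiv ℝ (P.loc i γ G) z)) ∧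
      Tendsto (fun j => fderiv ℝ (fderiv ℝ (P.loc i γ (u j))) z) 𝒰
        (𝓝 (fderiv ℝ (fderiv ℝ (P.loc i γ G)) z)) := by
    intro i γ z hz
    refine hUl (Cm n) ι 𝒰 (fun j => P.loc i γ (u j)) z (P.loc i γ G) ?_
      (Eventually.of_forall fun y => hloc i γ y)
    intro k
    obtain ⟨ρ, hρ, C, hC⟩ := key i γ z hz k
    exact ⟨ρ, hρ, C, hC.mono fun j hj y hy => ⟨(hj y hy).1, (hj y hy).2.2⟩⟩
  refine ⟨G, hG, fun i γ z hz => (hult i γ z hz).1, ?_, hGt, ?_⟩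
  · rw [← solOn_univ_iff]
    intro i γ z hz _
    obtain ⟨-, -, h2⟩ := hult i γ z hz
    obtain ⟨ρ, hρ, C, hC⟩ := key i γ z hz 0
    have h3 : Tendsto (fun j => P.Lo i (P.loc i γ (u j)) z) 𝒰 (𝓝 (P.Lo i (P.loc i γ G) z)) :=
      ((cf P i z).continuous.tendsto _).comp h2
    have h4 : Tendsto (fun j => l * P.loc i γ (u j) z) 𝒰 (𝓝 (l * P.loc i γ G z)) :=
      (hloc i γ z).const_mul l
    refine tendsto_nhds_unique (h3.congr' ?_) h4
    filter_upwards [hC] with j hj using (hj z (mem_ball_self hρ)).2.1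
  · intro i γ z hz zs hzs
    obtain ⟨-, h1, -⟩ := hult i γ z hz
    obtain ⟨ρ, hρ, C, hC⟩ := key i γ z hz 2
    constructor
    · refine tendsto_moving hρ (C := C) ?_ (hloc i γ z) hzs
      filter_upwards [hC] with j hj y hy
      refine ⟨(contDiffAt_two (hj y hy).1).differentiableAt (by norm_num), ?_⟩
      rw [← norm_iteratedFDeriv_one]
      exact (hj y hy).2.2 1 (by norm_num)
    · refine tendsto_moving (g := fun j => fderiv ℝ (P.loc i γ (u j))) hρ (C := C) ?_ h1 hzs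
      filter_upwards [hC] with j hj y hy
      refine ⟨diff_fderiv (hj y hy).1, ?_⟩
      rw [← norm_iteratedFDeriv_one, norm_iteratedFDeriv_fderiv]
      exact (hj y hy).2.2 2 le_rfl

end Vale.Agent.P299.H792
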